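import Crest.Agent.Helper75.OT.Defs
import Crest.Agent.Helper82.SD.Exist

/-!
# Row 82 (S0109) — bridge: existence of Laguerre weights in the `Finset`/`Lag` form

`exists_lagWeights` (statement of `Spec.exists_lagWeights`) from helper82's
`Crest.Agent.Helper82.SD.exists_weights` (raw cells, injective sites indexed by a finite type).
The three measure facts needed (probability, `K`-support, null hyperplanes) are proved locally in
the namespace `BridgeAux`.
-/

set_option autoImplicit false

noncomputable section

open MeasureTheory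
open scoped ENNReal NNReal RealInnerProductSpace

namespace Crest.Agent.Helper75.OT

open Crest.AnalysisR.OT

variable {d : ℕ}

namespace BridgeAux

theorem vol_ne_zero {K : Set (E d)} (hK : Body K) : (volume K) ≠ 0 :=
  (lt_of_lt_of_le (isOpen_interior.measure_pos volume hK.inter)
    (measure_mono interior_subset)).ne'

theorem vol_ne_top {K : Set (E d)} (hK : Body K) : (volume K) ≠ ∞ :=
  hK.compact.measure_lt_top.ne

theorem rho_prob {K : Set (E d)} (hK : Body K) : IsProbabilityMeasure (uniformProbOn K) := by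
  constructor
  simp only [uniformProbOn, Measure.smul_apply, Measure.restrict_apply MeasurableSet.univ,
    Set.univ_inter, smul_eq_mul]
  exact ENNReal.inv_mul_cancel (vol_ne_zero hK) (vol_ne_top hK)

theorem rho_compl {K : Set (E d)} (hK : Body K) : (uniformProbOn K) Kᶜ = 0 := by
  simp only [uniformProbOn, Measure.smul_apply, smul_eq_mul]
  rw [Measure.restrict_apply hK.compact.isClosed.measurableSet.compl, Set.compl_inter_self,
    measure_empty, mul_zero]

theorem rho_null_of_vol_null (K : Set (E d)) {s : Set (E d)} (hs : volume s = 0) :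
    (uniformProbOn K) s = 0 := by
  simp only [uniformProbOn, Measure.smul_apply, smul_eq_mul]
  have : (volume.restrict K) s = 0 :=
    le_antisymm (hs ▸ Measure.restrict_apply_le K s) zero_le
  rw [this, mul_zero]

theorem vol_hyperplane (v : E d) (hv : v ≠ 0) (c : ℝ) :
    (volume : Measure (E d)) {x | ⟪x, v⟫ = c} = 0 := by
  let f : E d →ᵃ[ℝ] ℝ := ((innerSL ℝ v : E d →L[ℝ] ℝ) : E d →ₗ[ℝ] ℝ).toAffineMap
  let s : AffineSubspace ℝ (E d) := (AffineSubspace.mk' c (⊥ : Submodule ℝ ℝ)).comap f
  have hs : (s : Set (E d)) = {x | ⟪x, v⟫ = c} := by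
    ext x
    simp only [s, f, AffineSubspace.coe_comap, Set.mem_preimage, SetLike.mem_coe,
      AffineSubspace.mem_mk', Submodule.mem_bot, vsub_eq_sub, sub_eq_zero]
    simp [real_inner_comm]
  have hne : s ≠ ⊤ := by
    intro h
    have h0 : (0 : E d) ∈ (s : Set (E d)) := by rw [h]; trivial
    have hv' : v ∈ (s : Set (E d)) := by rw [h]; trivial
    rw [hs] at h0 hv'
    have h0' : ⟪(0 : E d), v⟫ = c := h0
    have hv'' : ⟪v, v⟫ = c := hv'
    rw [inner_zero_left] at h0'
    rw [← h0'] at hv''
    exact hv (inner_self_eq_zero.mp hv'')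
  rw [← hs]
  exact Measure.addHaar_affineSubspace volume s hne

theorem rho_hyperplane (K : Set (E d)) (v : E d) (hv : v ≠ 0) (c : ℝ) :
    (uniformProbOn K) {x | ⟪x, v⟫ = c} = 0 :=
  rho_null_of_vol_null K (vol_hyperplane v hv c)

end BridgeAux

/-- Existence of Laguerre weights (statement of `Spec.exists_lagWeights`). Renamed with the
suffix `_alt`: the canonical `exists_lagWeights` is the one of
`Crest.Agent.Helper82.OT.LagWeights` (same namespace), so both files can be imported together. -/
theorem exists_lagWeights_alt {K : Set (E d)} (hK : Body K) (S : Finset (E d)) (hS : S.Nonempty)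
    (g : E d → ℝ) (hg : ∀ c ∈ S, 0 < g c) (hsum : ∑ c ∈ S, g c = 1) :
    ∃ w : E d → ℝ, IsLagWeights K S g w := by
  classical
  have : IsProbabilityMeasure (uniformProbOn K) := BridgeAux.rho_prob hK
  have : Nonempty S := hS.to_subtype
  obtain ⟨R, hR⟩ := hK.compact.isBounded.exists_norm_le
  have hRae : ∀ᵐ x ∂(uniformProbOn K), ‖x‖ ≤ R := by
    rw [ae_iff]
    refine measure_mono_null (fun x hx hxK => hx (hR x hxK)) (BridgeAux.rho_compl hK)
  obtain ⟨ψ, -, hψ, -⟩ := Crest.Agent.Helper82.SD.exists_weights (uniformProbOn K) hRae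
    (fun v c hv => BridgeAux.rho_hyperplane K v hv c) (fun c : S => (c : E d))
    Subtype.val_injective (fun c : S => g c) (fun c => hg c c.2)
    (by rw [← hsum]; exact Finset.sum_coe_sort S g)
  refine ⟨fun c => if h : c ∈ S then ψ ⟨c, h⟩ else 0, fun c hc => ?_⟩
  have hLag : Lag K S (fun c => if h : c ∈ S then ψ ⟨c, h⟩ else 0) c
      = Crest.Agent.Helper82.SD.cell (fun c : S => (c : E d)) ψ ⟨c, hc⟩ ∩ K := by
    ext x
    simp only [Lag, Set.mem_ofPred_eq, Set.mem_inter_iff, Crest.Agent.Helper82.SD.mem_cell,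
      Subtype.forall, dif_pos hc]
    constructor
    · rintro ⟨hxK, h⟩
      refine ⟨fun a ha => ?_, hxK⟩
      have := h a ha
      rwa [dif_pos ha] at this
    · rintro ⟨h, hxK⟩
      refine ⟨hxK, fun a ha => ?_⟩
      rw [dif_pos ha]
      exact h a ha
  unfold gM
  rw [hLag, measure_inter_conull (BridgeAux.rho_compl hK), hψ ⟨c, hc⟩,
    ENNReal.toReal_ofReal (hg c hc).le]

end Crest.Agent.Helper75.OT
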