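/-
helper75 — row 82 (S0109), bridge for package (A): helper71's `subgradient_interpolation`
(since commit e7646a3 stated for `f`, `g` continuous on `K`) is verbatim helper66's interface
`InterpA K M C`.  This file only records that fact under one name; consumers may equally well
cite helper71's theorem directly.
-/
import Crest.Agent.Helper71.OT.Interp
import Crest.Agent.Helper66.OT.Interface

set_option autoImplicit false
open MeasureTheory Set

namespace Crest.Agent.Helper75.OT

/-- **(A)** in the form consumed by the limit passage (D). -/
theorem interpA_of_body {d : ℕ} (K : Set (EuclideanSpace ℝ (Fin d))) (hKc : IsCompact K)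
    (hKv : Convex ℝ K) (hKi : (interior K).Nonempty) (M : ℝ) (hM : 0 ≤ M) :
    ∃ C : ℝ, 0 ≤ C ∧ Crest.Agent.Helper66.OT.InterpA K M C :=
  Crest.Agent.Helper71.OT.subgradient_interpolation K hKc hKv hKi M hM

end Crest.Agent.Helper75.OT
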