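import Crest.Agent.Helper75.OT.Defs

/-!
# Row 82 (S0109) — package interfaces (sorried statements; INTERFACE ONLY).

Never import this file from a finished file: copy the statement you prove into your own file
(`Crest/Agent/<You>/OT/<Name>.lean`, namespace `Crest.Agent.Helper75.OT`, same theorem name) and,
while developing, import `Spec` only for the interfaces you depend on.
-/

set_option autoImplicit false

noncomputable section

open MeasureTheory Filter Topology
open scoped ENNReal NNReal RealInnerProductSpace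

namespace Crest.Agent.Helper75.OT.Spec

open Crest.AnalysisR.OT Crest.Agent.Helper75.OT

variable {d : ℕ}

/-! ## WP-PL1 / WP-PLn : Prékopa–Leindler (midpoint form) -/

theorem pl_one_dim (f g h : ℝ → ℝ≥0∞) (hf : Measurable f) (hg : Measurable g) (hh : Measurable h)
    (H : ∀ x y, f x * g y ≤ h ((x + y) / 2) ^ 2) :
    (∫⁻ x, f x) * (∫⁻ x, g x) ≤ (∫⁻ x, h x) ^ 2 := by
  sorry

theorem pl_pi (n : ℕ) (f g h : (Fin n → ℝ) → ℝ≥0∞) (hf : Measurable f) (hg : Measurable g)
    (hh : Measurable h) (H : ∀ x y, f x * g y ≤ h ((1 / 2 : ℝ) • (x + y)) ^ 2) :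
    (∫⁻ x, f x) * (∫⁻ x, g x) ≤ (∫⁻ x, h x) ^ 2 := by
  sorry

theorem prekopa_leindler (f g h : E d → ℝ≥0∞) (hf : Measurable f) (hg : Measurable g)
    (hh : Measurable h) (H : ∀ x y, f x * g y ≤ h ((1 / 2 : ℝ) • (x + y)) ^ 2) :
    (∫⁻ x, f x) * (∫⁻ x, g x) ≤ (∫⁻ x, h x) ^ 2 := by
  sorry

/-! ## WP-CELLS : basic facts on the source measure and on Laguerre cells -/

theorem rho_prob {K : Set (E d)} (hK : Body K) : IsProbabilityMeasure (uniformProbOn K) := by
  sorry

theorem rho_compl {K : Set (E d)} (hK : Body K) : (uniformProbOn K) Kᶜ = 0 := by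
  sorry

theorem rho_ac (K : Set (E d)) : (uniformProbOn K) ≪ (volume : Measure (E d)) := by
  sorry

/-- Formula for integrals against the source measure. -/
theorem rho_integral {K : Set (E d)} (hK : Body K) {F : Type} [NormedAddCommGroup F]
    [NormedSpace ℝ F] (f : E d → F) :
    ∫ x, f x ∂(uniformProbOn K) = (volume K).toReal⁻¹ • ∫ x in K, f x := by
  sorry

theorem vol_pos {K : Set (E d)} (hK : Body K) : 0 < (volume K).toReal := by
  sorry

/-- Hyperplanes are null. -/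
theorem rho_hyperplane {K : Set (E d)} (a : E d) (ha : a ≠ 0) (t : ℝ) :
    (uniformProbOn K) {x | ⟪x, a⟫ = t} = 0 := by
  sorry

/-- A relatively open nonempty piece of `K` has positive mass. -/
theorem rho_pos_of_open {K : Set (E d)} (hK : Body K) {U : Set (E d)} (hU : IsOpen U)
    (hne : (U ∩ K).Nonempty) : 0 < (uniformProbOn K) U := by
  sorry

theorem Lag_subset (K : Set (E d)) (S : Finset (E d)) (w : E d → ℝ) (c : E d) :
    Lag K S w c ⊆ K := by
  sorry

theorem isClosed_Lag {K : Set (E d)} (hK : Body K) (S : Finset (E d)) (w : E d → ℝ) (c : E d) :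
    IsClosed (Lag K S w c) := by
  sorry

theorem measurableSet_Lag {K : Set (E d)} (hK : Body K) (S : Finset (E d)) (w : E d → ℝ)
    (c : E d) : MeasurableSet (Lag K S w c) := by
  sorry

theorem convex_Lag {K : Set (E d)} (hK : Body K) (S : Finset (E d)) (w : E d → ℝ) (c : E d) :
    Convex ℝ (Lag K S w c) := by
  sorry

/-- Midpoints of cells lie in the cell of the averaged weights. -/
theorem Lag_midpoint {K : Set (E d)} (hK : Body K) (S : Finset (E d)) (w0 w1 : E d → ℝ) (c : E d)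
    {x y : E d} (hx : x ∈ Lag K S w0 c) (hy : y ∈ Lag K S w1 c) :
    (1 / 2 : ℝ) • (x + y) ∈ Lag K S (fun a => (w0 a + w1 a) / 2) c := by
  sorry

/-- Cells of distinct atoms overlap in a null set. -/
theorem Lag_inter_null {K : Set (E d)} (S : Finset (E d)) (w : E d → ℝ) {c c' : E d}
    (hc : c ∈ S) (hc' : c' ∈ S) (hne : c ≠ c') :
    (uniformProbOn K) (Lag K S w c ∩ Lag K S w c') = 0 := by
  sorry

/-- The cells cover `K`. -/
theorem iUnion_Lag (K : Set (E d)) (S : Finset (E d)) (hS : S.Nonempty) (w : E d → ℝ) :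
    (⋃ c ∈ S, Lag K S w c) = K := by
  sorry

/-- Integrals split over the cells. -/
theorem sum_integral_Lag {K : Set (E d)} (hK : Body K) (S : Finset (E d)) (hS : S.Nonempty)
    (w : E d → ℝ) {F : Type} [NormedAddCommGroup F] [NormedSpace ℝ F] (f : E d → F)
    (hf : Integrable f (uniformProbOn K)) :
    ∑ c ∈ S, ∫ x in Lag K S w c, f x ∂(uniformProbOn K) = ∫ x, f x ∂(uniformProbOn K) := by
  sorry

theorem sum_gM {K : Set (E d)} (hK : Body K) (S : Finset (E d)) (hS : S.Nonempty)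
    (w : E d → ℝ) : ∑ c ∈ S, gM K S w c = 1 := by
  sorry

theorem gM_nonneg (K : Set (E d)) (S : Finset (E d)) (w : E d → ℝ) (c : E d) :
    0 ≤ gM K S w c := by
  sorry

theorem norm_mM_le {K : Set (E d)} (hK : Body K) {R : ℝ} (hR : ∀ x ∈ K, ‖x‖ ≤ R)
    (S : Finset (E d)) (w : E d → ℝ) (c : E d) : ‖mM K S w c‖ ≤ R * gM K S w c := by
  sorry

theorem qM_nonneg (K : Set (E d)) (S : Finset (E d)) (w : E d → ℝ) (c : E d) :
    0 ≤ qM K S w c := by
  sorry

theorem qM_le {K : Set (E d)} (hK : Body K) {R : ℝ} (hR : ∀ x ∈ K, ‖x‖ ≤ R)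
    (S : Finset (E d)) (w : E d → ℝ) (c : E d) : qM K S w c ≤ R ^ 2 * gM K S w c := by
  sorry

/-- The potential is the active affine function on each cell, and dominates all of them. -/
theorem lagPot_eq_of_mem {K : Set (E d)} {S : Finset (E d)} {w : E d → ℝ} {c x : E d}
    (hc : c ∈ S) (hx : x ∈ Lag K S w c) : lagPot S w x = ⟪x, c⟫ - w c := by
  sorry

theorem le_lagPot {S : Finset (E d)} (w : E d → ℝ) {c : E d} (hc : c ∈ S) (x : E d) :
    ⟪x, c⟫ - w c ≤ lagPot S w x := by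
  sorry

theorem convexOn_lagPot (S : Finset (E d)) (w : E d → ℝ) : ConvexOn ℝ Set.univ (lagPot S w) := by
  sorry

theorem lipschitz_lagPot {S : Finset (E d)} (w : E d → ℝ) {R : ℝ≥0} (hS : ∀ c ∈ S, ‖c‖ ≤ R) :
    LipschitzWith R (lagPot S w) := by
  sorry

/-- Cell masses depend continuously on the weights. -/
theorem continuous_gM {K : Set (E d)} (hK : Body K) (S : Finset (E d)) (c : E d) (hc : c ∈ S)
    (w : ℕ → E d → ℝ) (w0 : E d → ℝ) (hw : ∀ a ∈ S, Tendsto (fun k => w k a) atTop (𝓝 (w0 a))) :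
    Tendsto (fun k => gM K S (w k) c) atTop (𝓝 (gM K S w0 c)) := by
  sorry

/-- Merged masses: positivity on the support and total mass. -/
theorem mergedMass_pos {ι : Type} [Fintype ι] (y : ι → E d) (m : ι → ℝ) (hm : ∀ i, 0 < m i)
    {c : E d} (hc : c ∈ supp y) : 0 < mergedMass y m c := by
  sorry

theorem sum_mergedMass {ι : Type} [Fintype ι] (y : ι → E d) (m : ι → ℝ) :
    ∑ c ∈ supp y, mergedMass y m c = ∑ i, m i := by
  sorry

/-- Regrouping a labelled sum by atoms. -/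
theorem sum_supp_mergedMass {ι : Type} [Fintype ι] (y : ι → E d) (m : ι → ℝ) (f : E d → ℝ) :
    ∑ c ∈ supp y, mergedMass y m c * f c = ∑ i, m i * f (y i) := by
  sorry

/-! ## WP-B3 : the moment inequality (Prékopa–Leindler + algebra) -/

theorem moment_stability {K : Set (E d)} (hK : Body K) {R : ℝ} (hR : ∀ x ∈ K, ‖x‖ ≤ R)
    (S : Finset (E d)) (w0 w1 : E d → ℝ) :
    ∑ c ∈ S, ‖mM K S w1 c - mM K S w0 c‖ ^ 2 / (gM K S w0 c + gM K S w1 c)
      ≤ 300 * R ^ 2 *
        ∑ c ∈ S, (gM K S w1 c - gM K S w0 c) ^ 2 / (gM K S w0 c + gM K S w1 c) := by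
  sorry

/-! ## WP-EX : existence of Laguerre weights -/

theorem exists_lagWeights {K : Set (E d)} (hK : Body K) (S : Finset (E d)) (hS : S.Nonempty)
    (g : E d → ℝ) (hg : ∀ c ∈ S, 0 < g c) (hsum : ∑ c ∈ S, g c = 1) :
    ∃ w : E d → ℝ, IsLagWeights K S g w := by
  sorry

/-! ## WP-UQ : uniqueness of Laguerre weights up to a constant -/

theorem lagWeights_unique {K : Set (E d)} (hK : Body K) (S : Finset (E d)) (g : E d → ℝ)
    (hg : ∀ c ∈ S, 0 < g c) (w w' : E d → ℝ) (h : IsLagWeights K S g w)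
    (h' : IsLagWeights K S g w') : ∃ κ : ℝ, ∀ c ∈ S, w' c = w c + κ := by
  sorry

/-! ## WP-MD : duality in the masses; derivative of `Mval` in the mass direction -/

/-- Supergradient inequality in the masses (no positivity needed). -/
theorem Mval_mass_le {K : Set (E d)} (hK : Body K) (S : Finset (E d)) (hS : S.Nonempty)
    (g g' w w' : E d → ℝ) (hw : IsLagWeights K S g w) (hw' : IsLagWeights K S g' w') :
    Mval K S w' ≤ Mval K S w + ∑ c ∈ S, (g' c - g c) * w c := by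
  sorry

/-- Continuity of the weights in the masses, tested against a mean-zero direction. -/
theorem lagWeights_tendsto {K : Set (E d)} (hK : Body K) (S : Finset (E d)) (hS : S.Nonempty)
    (g Θ : E d → ℝ) (hg : ∀ c ∈ S, 0 < g c) (hsum : ∑ c ∈ S, g c = 1)
    (hΘ : ∑ c ∈ S, Θ c = 0) (w : E d → ℝ) (hw : IsLagWeights K S g w) (ws : ℝ → E d → ℝ)
    (hws : ∀ᶠ s in 𝓝[>] (0 : ℝ), IsLagWeights K S (fun c => g c + s * Θ c) (ws s)) :
    Tendsto (fun s => ∑ c ∈ S, Θ c * ws s c) (𝓝[>] 0) (𝓝 (∑ c ∈ S, Θ c * w c)) := by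
  sorry

theorem mass_deriv {K : Set (E d)} (hK : Body K) (S : Finset (E d)) (hS : S.Nonempty)
    (g Θ : E d → ℝ) (hg : ∀ c ∈ S, 0 < g c) (hsum : ∑ c ∈ S, g c = 1)
    (hΘ : ∑ c ∈ S, Θ c = 0) (w : E d → ℝ) (hw : IsLagWeights K S g w) (ws : ℝ → E d → ℝ)
    (hws : ∀ᶠ s in 𝓝[>] (0 : ℝ), IsLagWeights K S (fun c => g c + s * Θ c) (ws s)) :
    Tendsto (fun s => (Mval K S (ws s) - Mval K S w) / s) (𝓝[>] 0)
      (𝓝 (∑ c ∈ S, Θ c * w c)) := by
  sorry

/-! ## WP-MP : subgradient of `Mval` in the positions of labelled atoms -/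

theorem Mval_position_subgrad {K : Set (E d)} (hK : Body K) {ι : Type} [Fintype ι]
    (y y' : ι → E d) (m : ι → ℝ) (hm : ∀ i, 0 < m i) (hsum : ∑ i, m i = 1) (w w' : E d → ℝ)
    (hw : IsLagWeights K (supp y) (mergedMass y m) w)
    (hw' : IsLagWeights K (supp y') (mergedMass y' m) w') :
    Mval K (supp y) w
        + ∑ i, m i / mergedMass y m (y i) * ⟪mM K (supp y) w (y i), y' i - y i⟫
      ≤ Mval K (supp y') w' := by
  sorry

/-! ## WP-4P : telescoping lemma, four-point inequality, stability of the weights -/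

/-- Abstract telescoping lemma: two functions on `[0,1]` with subgradient selections that are
uniformly `ε`-close have increments that are `ε`-close. -/
theorem telescoping (h0 h1 p0 p1 : ℝ → ℝ) (ε : ℝ)
    (H0 : ∀ t ∈ Set.Icc (0 : ℝ) 1, ∀ t' ∈ Set.Icc (0 : ℝ) 1, h0 t + p0 t * (t' - t) ≤ h0 t')
    (H1 : ∀ t ∈ Set.Icc (0 : ℝ) 1, ∀ t' ∈ Set.Icc (0 : ℝ) 1, h1 t + p1 t * (t' - t) ≤ h1 t')
    (hp : ∀ t ∈ Set.Icc (0 : ℝ) 1, |p1 t - p0 t| ≤ ε) :
    |(h1 1 - h1 0) - (h0 1 - h0 0)| ≤ ε := by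
  sorry

/-- Stability of the Laguerre weights (dual potentials at the atoms) in the positions. -/
theorem weights_stability {K : Set (E d)} (hK : Body K) {R : ℝ} (hR : ∀ x ∈ K, ‖x‖ ≤ R)
    {ι : Type} [Fintype ι] (y z : ι → E d) (m : ι → ℝ) (hm : ∀ i, 0 < m i)
    (hsum : ∑ i, m i = 1) (wy wz : E d → ℝ)
    (hwy : IsLagWeights K (supp y) (mergedMass y m) wy)
    (hwz : IsLagWeights K (supp z) (mergedMass z m) wz) :
    ∑ i, m i * ((wy (y i) - wz (z i)) - ∑ j, m j * (wy (y j) - wz (z j))) ^ 2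
      ≤ 1100 * R ^ 2 * ∑ i, m i * ‖y i - z i‖ ^ 2 := by
  sorry

/-! ## WP-SW : the sandwich -/

theorem sandwich {K : Set (E d)} (hK : Body K) {R : ℝ} (hR : ∀ x ∈ K, ‖x‖ ≤ R)
    {ι : Type} [Fintype ι] (y z : ι → E d) (m : ι → ℝ) (hm : ∀ i, 0 < m i)
    (hsum : ∑ i, m i = 1) (wy wz : E d → ℝ)
    (hwy : IsLagWeights K (supp y) (mergedMass y m) wy)
    (hwz : IsLagWeights K (supp z) (mergedMass z m) wz) :
    ∫ x, (lagPot (supp y) wy x - lagPot (supp z) wz x
          + ∑ j, m j * (wy (y j) - wz (z j))) ^ 2 ∂(uniformProbOn K)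
      ≤ 4 * R ^ 2 * ∑ i, m i * ‖y i - z i‖ ^ 2
        + 4 * ∑ i, m i * ((wy (y i) - wz (z i)) - ∑ j, m j * (wy (y j) - wz (z j))) ^ 2 := by
  sorry

/-- Stability of the potentials for discrete targets: `(B)`. -/
theorem discrete_potential_stability {K : Set (E d)} (hK : Body K) {R : ℝ}
    (hR : ∀ x ∈ K, ‖x‖ ≤ R) {ι : Type} [Fintype ι] (y z : ι → E d) (m : ι → ℝ)
    (hm : ∀ i, 0 < m i) (hsum : ∑ i, m i = 1) (wy wz : E d → ℝ)
    (hwy : IsLagWeights K (supp y) (mergedMass y m) wy)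
    (hwz : IsLagWeights K (supp z) (mergedMass z m) wz) :
    ∃ κ : ℝ, ∫ x, (lagPot (supp y) wy x - lagPot (supp z) wz x - κ) ^ 2 ∂(uniformProbOn K)
      ≤ 5000 * R ^ 2 * ∑ i, m i * ‖y i - z i‖ ^ 2 := by
  sorry

/-! ## WP-LM : the Laguerre map (measurable argmax selection) -/

/-- A measurable selection of the active atom. -/
theorem exists_lagMap {K : Set (E d)} (hK : Body K) (S : Finset (E d)) (hS : S.Nonempty)
    (w : E d → ℝ) :
    ∃ L : E d → E d, Measurable L ∧ (∀ x, L x ∈ S) ∧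
      (∀ x, ∀ c' ∈ S, ⟪x, c'⟫ - w c' ≤ ⟪x, L x⟫ - w (L x)) ∧
      ∀ c ∈ S, (uniformProbOn K) (L ⁻¹' {c}) = (uniformProbOn K) (Lag K S w c) := by
  sorry

/-- Point masses of a labelled discrete measure. -/
theorem discMeas_singleton {ι : Type} [Fintype ι] (y : ι → E d) (m : ι → ℝ) (hm : ∀ i, 0 ≤ m i)
    (c : E d) : discMeas y m {c} = ENNReal.ofReal (mergedMass y m c) := by
  sorry

/-- The Laguerre map of valid weights pushes the source onto the labelled discrete measure. -/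
theorem lagMap_push {K : Set (E d)} (hK : Body K) {ι : Type} [Fintype ι] (y : ι → E d)
    (m : ι → ℝ) (hm : ∀ i, 0 < m i) (hsum : ∑ i, m i = 1) (w : E d → ℝ)
    (hw : IsLagWeights K (supp y) (mergedMass y m) w) (L : E d → E d) (hLm : Measurable L)
    (hLS : ∀ x, L x ∈ supp y)
    (hLc : ∀ c ∈ supp y, (uniformProbOn K) (L ⁻¹' {c}) = (uniformProbOn K) (Lag K (supp y) w c)) :
    (uniformProbOn K).map L = discMeas y m := by
  sorry

/-! ## WP-DT : the discrete theory in the shape consumed by the final assembly (helper66) -/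

/-- Canonical potential and Laguerre map, as functions of the (finitely supported) target
measure; stability of the normalised potentials under ANY labelled coupling (repeats allowed). -/
theorem discrete_theory {K : Set (E d)} (hK : Body K) (M : ℝ) (hM : 0 ≤ M) :
    ∃ (C1 : ℝ) (pot : Measure (E d) → E d → ℝ) (lag : Measure (E d) → E d → E d), 0 ≤ C1 ∧
      (∀ (ι : Type) [Fintype ι] (w : ι → ℝ) (y : ι → E d), (∀ i, 0 < w i) → ∑ i, w i = 1 →
        (∀ i, ‖y i‖ ≤ M) →
          Measurable (lag (discMeas y w)) ∧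
          (uniformProbOn K).map (lag (discMeas y w)) = discMeas y w ∧
          (∀ x ∈ K, ‖lag (discMeas y w) x‖ ≤ M) ∧
          (∀ x ∈ K, ∀ z ∈ K,
            pot (discMeas y w) x + ⟪lag (discMeas y w) x, z - x⟫ ≤ pot (discMeas y w) z) ∧
          ∫ x, pot (discMeas y w) x ∂(uniformProbOn K) = 0) ∧
      (∀ (ι : Type) [Fintype ι] (w : ι → ℝ) (y z : ι → E d), (∀ i, 0 < w i) → ∑ i, w i = 1 →
        (∀ i, ‖y i‖ ≤ M) → (∀ i, ‖z i‖ ≤ M) →
          ∫ x, (pot (discMeas y w) x - pot (discMeas z w) x) ^ 2 ∂(uniformProbOn K)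
            ≤ C1 * ∑ i, w i * ‖y i - z i‖ ^ 2) := by
  sorry

end Crest.Agent.Helper75.OT.Spec
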